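import Mathlib

open scoped ContDiff
open Set

namespace Vale.Agent.P229

lemma exists_primitive {a b : ℝ} (s : ℝ → ℝ) (hs : ContDiffOn ℝ ∞ s (Set.Ioo a b)) :
    ∃ z : ℝ → ℝ, ContDiffOn ℝ ∞ z (Set.Ioo a b) ∧ ∀ x ∈ Set.Ioo a b, HasDerivAt z (s x) x := by
  rcases (Set.Ioo a b).eq_empty_or_nonempty with h | ⟨x0, hx0⟩
  · refine ⟨0, ?_, ?_⟩ <;> simp [h]
  have key : ∀ x ∈ Set.Ioo a b, HasDerivAt (fun x => ∫ t in x0..x, s t) (s x) x := by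
    intro x hx
    have hsub : Set.uIcc x0 x ⊆ Set.Ioo a b := (Set.ordConnected_Ioo).uIcc_subset hx0 hx
    apply intervalIntegral.integral_hasDerivAt_right
    · exact (hs.continuousOn.mono hsub).intervalIntegrable
    · exact hs.continuousOn.stronglyMeasurableAtFilter isOpen_Ioo x hx
    · exact (hs.continuousOn).continuousAt (isOpen_Ioo.mem_nhds hx)
  refine ⟨_, ?_, key⟩
  rw [contDiffOn_infty_iff_deriv_of_isOpen isOpen_Ioo]
  refine ⟨fun x hx => (key x hx).differentiableAt.differentiableWithinAt, ?_⟩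
  exact hs.congr (fun x hx => (key x hx).deriv)

/-- existence of the profile functions -/
lemma exists_profile {a b : ℝ} (E F G : ℝ → ℝ) (hE : ContDiffOn ℝ ∞ E (Ioo a b))
    (hF : ContDiffOn ℝ ∞ F (Ioo a b)) (hG : ContDiffOn ℝ ∞ G (Ioo a b))
    (hG0 : ∀ x ∈ Ioo a b, 0 < G x) (hdet : ∀ x ∈ Ioo a b, F x ^ 2 < E x * G x)
    (x0 : ℝ) (hx0 : x0 ∈ Ioo a b) :
    ∃ a' b' : ℝ, x0 ∈ Ioo a' b' ∧ Ioo a' b' ⊆ Ioo a b ∧ ∃ (l : ℝ) (R h z R1 h1 z1 : ℝ → ℝ), 0 < l ∧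
      ContDiffOn ℝ ∞ R (Ioo a' b') ∧ ContDiffOn ℝ ∞ h (Ioo a' b') ∧ ContDiffOn ℝ ∞ z (Ioo a' b') ∧
      (∀ x ∈ Ioo a' b', HasDerivAt R (R1 x) x ∧ HasDerivAt h (h1 x) x ∧ HasDerivAt z (z1 x) x ∧
        R x ^ 2 = G x ∧ R x ^ 2 * h1 x = F x ∧
        l ^ 2 * R1 x ^ 2 + R x ^ 2 * h1 x ^ 2 + z1 x ^ 2 = E x) := by
  have hR : ContDiffOn ℝ ∞ (fun x => Real.sqrt (G x)) (Ioo a b) :=
    hG.sqrt (fun x hx => (hG0 x hx).ne')
  have hR' := (contDiffOn_infty_iff_deriv_of_isOpen isOpen_Ioo).1 hR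
  set R : ℝ → ℝ := fun x => Real.sqrt (G x) with hRdef
  have hD : ContDiffOn ℝ ∞ (fun x => E x - F x ^ 2 / G x) (Ioo a b) :=
    hE.sub ((hF.pow 2).div hG (fun x hx => (hG0 x hx).ne'))
  have hDpos : ∀ x ∈ Ioo a b, 0 < E x - F x ^ 2 / G x := by
    intro x hx
    have h1 := hG0 x hx
    have h2 := hdet x hx
    rw [sub_pos, div_lt_iff₀ h1]
    exact h2
  set l : ℝ := Real.sqrt ((E x0 - F x0 ^ 2 / G x0) / (deriv R x0 ^ 2 + 1)) with hl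
  have hD0 := hDpos x0 hx0
  have hlpos : 0 < l := Real.sqrt_pos.2 (by positivity)
  have hlsq : l ^ 2 = (E x0 - F x0 ^ 2 / G x0) / (deriv R x0 ^ 2 + 1) :=
    Real.sq_sqrt (by positivity)
  have hs0 : ContDiffOn ℝ ∞ (fun x => E x - F x ^ 2 / G x - l ^ 2 * deriv R x ^ 2) (Ioo a b) :=
    hD.sub (contDiffOn_const.mul (hR'.2.pow 2))
  have hs00 : 0 < E x0 - F x0 ^ 2 / G x0 - l ^ 2 * deriv R x0 ^ 2 := by
    rw [hlsq]
    have h3 : (0 : ℝ) < deriv R x0 ^ 2 + 1 := by positivity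
    rw [sub_pos, div_mul_eq_mul_div, div_lt_iff₀ h3]
    nlinarith
  have hcont : ContinuousAt (fun x => E x - F x ^ 2 / G x - l ^ 2 * deriv R x ^ 2) x0 :=
    hs0.continuousOn.continuousAt (isOpen_Ioo.mem_nhds hx0)
  have hev : ∀ᶠ x in nhds x0, 0 < E x - F x ^ 2 / G x - l ^ 2 * deriv R x ^ 2 ∧ x ∈ Ioo a b :=
    (hcont.eventually (lt_mem_nhds hs00)).and (isOpen_Ioo.mem_nhds hx0)
  obtain ⟨δ, hδ, hball⟩ := Metric.eventually_nhds_iff_ball.1 hev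
  rw [Real.ball_eq_Ioo] at hball
  refine ⟨x0 - δ, x0 + δ, ⟨by linarith, by linarith⟩, fun x hx => (hball x hx).2, ?_⟩
  have hsub : Ioo (x0 - δ) (x0 + δ) ⊆ Ioo a b := fun x hx => (hball x hx).2
  have hs : ContDiffOn ℝ ∞
      (fun x => Real.sqrt (E x - F x ^ 2 / G x - l ^ 2 * deriv R x ^ 2))
      (Ioo (x0 - δ) (x0 + δ)) :=
    (hs0.mono hsub).sqrt (fun x hx => (hball x hx).1.ne')
  obtain ⟨z, hz, hz'⟩ := exists_primitive _ hs
  have hh : ContDiffOn ℝ ∞ (fun x => F x / G x) (Ioo (x0 - δ) (x0 + δ)) :=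
    (hF.div hG (fun x hx => (hG0 x hx).ne')).mono hsub
  obtain ⟨h, hhs, hh'⟩ := exists_primitive _ hh
  refine ⟨l, R, h, z, deriv R, fun x => F x / G x,
    fun x => Real.sqrt (E x - F x ^ 2 / G x - l ^ 2 * deriv R x ^ 2), hlpos, hR.mono hsub, hhs, hz,
    fun x hx => ⟨?_, hh' x hx, hz' x hx, ?_, ?_, ?_⟩⟩
  · exact ((hR.differentiableOn (by simp)).differentiableAt
      (isOpen_Ioo.mem_nhds (hsub hx))).hasDerivAt
  · exact Real.sq_sqrt (hG0 x (hsub hx)).le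
  · have h0 := hG0 x (hsub hx)
    have h1 : R x ^ 2 = G x := Real.sq_sqrt h0.le
    show R x ^ 2 * (F x / G x) = F x
    rw [h1]
    field_simp
  · have h0 := hG0 x (hsub hx)
    have h1 : R x ^ 2 = G x := Real.sq_sqrt h0.le
    show l ^ 2 * deriv R x ^ 2 + R x ^ 2 * (F x / G x) ^ 2
      + Real.sqrt (E x - F x ^ 2 / G x - l ^ 2 * deriv R x ^ 2) ^ 2 = E x
    rw [h1, Real.sq_sqrt (hball x hx).1.le]
    field_simp
    ring

end Vale.Agent.P229
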