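import Vale.Agent.P229.Ode

open scoped ContDiff
open Set

namespace Vale.Agent.P229

/-- the algebraic identity behind the profile equation -/
lemma profile_algebra (c m E F G G1 z w S : ℝ) (hm : m ≠ 0) (hG : G ≠ 0)
    (hk : c ^ 2 + m ^ 2 ≠ 0)
    (hS : (c ^ 2 + m ^ 2) * S = G - c ^ 2 * z ^ 2)
    (hw : (G * w - c * z * F) ^ 2 = c ^ 2 * z ^ 2 * F ^ 2 + E * G * (G - c ^ 2 * z ^ 2)
      - G * (G1 ^ 2 / (4 * (c ^ 2 + m ^ 2))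
        + ((c ^ 2 + m ^ 2) / m ^ 2) * (F - c * G1 / (2 * (c ^ 2 + m ^ 2))) ^ 2)) :
    ((G1 - 2 * c ^ 2 * z * w) / (2 * (c ^ 2 + m ^ 2))) ^ 2
      + ((F - c * ((G1 - 2 * c ^ 2 * z * w) / (2 * (c ^ 2 + m ^ 2)) + z * w)) / m) ^ 2
      + S * w ^ 2 = E * S := by
  have hS' : S = (G - c ^ 2 * z ^ 2) / (c ^ 2 + m ^ 2) := by
    rw [eq_div_iff hk, mul_comm]
    exact hS
  have key : (c ^ 2 + m ^ 2) * G * (((G1 - 2 * c ^ 2 * z * w) / (2 * (c ^ 2 + m ^ 2))) ^ 2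
      + ((F - c * ((G1 - 2 * c ^ 2 * z * w) / (2 * (c ^ 2 + m ^ 2)) + z * w)) / m) ^ 2
      + S * w ^ 2 - E * S) = (G * w - c * z * F) ^ 2
      - (c ^ 2 * z ^ 2 * F ^ 2 + E * G * (G - c ^ 2 * z ^ 2)
      - G * (G1 ^ 2 / (4 * (c ^ 2 + m ^ 2))
        + ((c ^ 2 + m ^ 2) / m ^ 2) * (F - c * G1 / (2 * (c ^ 2 + m ^ 2))) ^ 2)) := by
    rw [hS']
    field_simp
    ring
  rw [hw, sub_self] at key
  have := (mul_eq_zero.1 key).resolve_left (mul_ne_zero hk hG)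
  linarith

/-- choice of the angular speed -/
lemma exists_speed (c E F G G1 : ℝ) (hdet : F ^ 2 < E * G) :
    ∃ m : ℝ, 0 < m ∧ 0 < E * G - (G1 ^ 2 / (4 * (c ^ 2 + m ^ 2))
        + ((c ^ 2 + m ^ 2) / m ^ 2) * (F - c * G1 / (2 * (c ^ 2 + m ^ 2))) ^ 2) := by
  have hcont : ContinuousAt (fun t : ℝ => E * G - (G1 ^ 2 * t ^ 2 / (4 * (c ^ 2 * t ^ 2 + 1))
        + (c ^ 2 * t ^ 2 + 1) * (F - c * G1 * t ^ 2 / (2 * (c ^ 2 * t ^ 2 + 1))) ^ 2)) 0 := by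
    have h1 : (4 : ℝ) * (c ^ 2 * (0 : ℝ) ^ 2 + 1) ≠ 0 := by norm_num
    have h2 : (2 : ℝ) * (c ^ 2 * (0 : ℝ) ^ 2 + 1) ≠ 0 := by norm_num
    fun_prop (disch := assumption)
  have hpos : 0 < (fun t : ℝ => E * G - (G1 ^ 2 * t ^ 2 / (4 * (c ^ 2 * t ^ 2 + 1))
        + (c ^ 2 * t ^ 2 + 1) * (F - c * G1 * t ^ 2 / (2 * (c ^ 2 * t ^ 2 + 1))) ^ 2)) 0 := by
    simp
    linarith
  have hev := hcont.eventually (lt_mem_nhds hpos)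
  obtain ⟨δ, hδ, hball⟩ := Metric.eventually_nhds_iff_ball.1 hev
  have ht : δ / 2 ∈ Metric.ball (0 : ℝ) δ := by
    rw [Metric.mem_ball, Real.dist_eq, sub_zero, abs_of_pos (by positivity)]
    linarith
  have h3 := hball _ ht
  refine ⟨(δ / 2)⁻¹, by positivity, ?_⟩
  have ht0 : (0 : ℝ) < δ / 2 := by positivity
  generalize δ / 2 = t at *
  have hk : c ^ 2 + (t⁻¹) ^ 2 = (c ^ 2 * t ^ 2 + 1) / t ^ 2 := by
    field_simp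
  have h4 : (0 : ℝ) < c ^ 2 * t ^ 2 + 1 := by positivity
  rw [hk]
  have e1 : G1 ^ 2 / (4 * ((c ^ 2 * t ^ 2 + 1) / t ^ 2))
      = G1 ^ 2 * t ^ 2 / (4 * (c ^ 2 * t ^ 2 + 1)) := by
    field_simp
  have e2 : (c ^ 2 * t ^ 2 + 1) / t ^ 2 / (t⁻¹) ^ 2 = c ^ 2 * t ^ 2 + 1 := by
    field_simp
  have e3 : c * G1 / (2 * ((c ^ 2 * t ^ 2 + 1) / t ^ 2))
      = c * G1 * t ^ 2 / (2 * (c ^ 2 * t ^ 2 + 1)) := by
    field_simp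
  rw [e1, e2, e3]
  exact h3

end Vale.Agent.P229
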