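import Vale.Agent.P229.Hom

open scoped ContDiff
open Set

namespace Vale.Agent.P229

/-- existence of the profile functions of the spiral surface -/
lemma exists_profile_hom {a b : ℝ} (c : ℝ) (E F G : ℝ → ℝ) (hE : ContDiffOn ℝ ∞ E (Ioo a b))
    (hF : ContDiffOn ℝ ∞ F (Ioo a b)) (hG : ContDiffOn ℝ ∞ G (Ioo a b))
    (hG0 : ∀ x ∈ Ioo a b, 0 < G x) (x0 : ℝ) (hx0 : x0 ∈ Ioo a b)
    (hdet : F x0 ^ 2 < E x0 * G x0) :
    ∃ a' b' : ℝ, x0 ∈ Ioo a' b' ∧ Ioo a' b' ⊆ Ioo a b ∧ ∃ (m : ℝ) (r th z r1 th1 z1 : ℝ → ℝ),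
      ContDiffOn ℝ ∞ r (Ioo a' b') ∧ ContDiffOn ℝ ∞ th (Ioo a' b') ∧
      ContDiffOn ℝ ∞ z (Ioo a' b') ∧
      (∀ x ∈ Ioo a' b', HasDerivAt r (r1 x) x ∧ HasDerivAt th (th1 x) x ∧ HasDerivAt z (z1 x) x ∧
        (c ^ 2 + m ^ 2) * r x ^ 2 + c ^ 2 * z x ^ 2 = G x ∧
        c * (r x * r1 x + z x * z1 x) + m * r x ^ 2 * th1 x = F x ∧
        r1 x ^ 2 + r x ^ 2 * th1 x ^ 2 + z1 x ^ 2 = E x) := by
  have hG' := (contDiffOn_infty_iff_deriv_of_isOpen isOpen_Ioo).1 hG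
  obtain ⟨m, hm, hpos⟩ := exists_speed c (E x0) (F x0) (G x0) (deriv G x0) hdet
  have hk : 0 < c ^ 2 + m ^ 2 := by positivity
  -- the two auxiliary functions
  set O1 : Set (ℝ × ℝ) := Prod.fst ⁻¹' Ioo a b with hO1
  have hO1open : IsOpen O1 := isOpen_Ioo.preimage continuous_fst
  set f1 : ℝ × ℝ → ℝ := fun q => G q.1 - c ^ 2 * q.2 ^ 2 with hf1
  set f2 : ℝ × ℝ → ℝ := fun q => c ^ 2 * q.2 ^ 2 * F q.1 ^ 2
      + E q.1 * G q.1 * (G q.1 - c ^ 2 * q.2 ^ 2)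
      - G q.1 * (deriv G q.1 ^ 2 / (4 * (c ^ 2 + m ^ 2))
        + ((c ^ 2 + m ^ 2) / m ^ 2) * (F q.1 - c * deriv G q.1 / (2 * (c ^ 2 + m ^ 2))) ^ 2)
    with hf2
  have sE : ContDiffOn ℝ ∞ (fun q : ℝ × ℝ => E q.1) O1 := hE.comp contDiffOn_fst (fun q hq => hq)
  have sF : ContDiffOn ℝ ∞ (fun q : ℝ × ℝ => F q.1) O1 := hF.comp contDiffOn_fst (fun q hq => hq)
  have sG : ContDiffOn ℝ ∞ (fun q : ℝ × ℝ => G q.1) O1 := hG.comp contDiffOn_fst (fun q hq => hq)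
  have sG1 : ContDiffOn ℝ ∞ (fun q : ℝ × ℝ => deriv G q.1) O1 :=
    hG'.2.comp contDiffOn_fst (fun q hq => hq)
  have s2 : ContDiffOn ℝ ∞ (fun q : ℝ × ℝ => q.2) O1 := contDiffOn_snd
  have sf1 : ContDiffOn ℝ ∞ f1 O1 := sG.sub (contDiffOn_const.mul (s2.pow 2))
  have sf2 : ContDiffOn ℝ ∞ f2 O1 := by
    refine (((contDiffOn_const.mul (s2.pow 2)).mul (sF.pow 2)).add ((sE.mul sG).mul sf1)).sub
      (sG.mul (((sG1.pow 2).div_const _).add (contDiffOn_const.mul ((sF.sub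
        ((contDiffOn_const.mul sG1).div_const _)).pow 2))))
  set O : Set (ℝ × ℝ) := (O1 ∩ f1 ⁻¹' Ioi 0) ∩ f2 ⁻¹' Ioi 0 with hO
  have hOa : IsOpen (O1 ∩ f1 ⁻¹' Ioi 0) :=
    sf1.continuousOn.isOpen_inter_preimage hO1open isOpen_Ioi
  have hOopen : IsOpen O :=
    (sf2.continuousOn.mono inter_subset_left).isOpen_inter_preimage hOa isOpen_Ioi
  have hOsub : O ⊆ O1 := fun q hq => hq.1.1
  set W : ℝ × ℝ → ℝ := fun q => (c * q.2 * F q.1 + Real.sqrt (f2 q)) / G q.1 with hWdef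
  have hW : ContDiffOn ℝ ∞ W O := by
    refine (((contDiffOn_const.mul (s2.mono hOsub)).mul (sF.mono hOsub)).add
      ((sf2.mono hOsub).sqrt (fun q hq => ne_of_gt hq.2))).div (sG.mono hOsub)
      (fun q hq => (hG0 q.1 (hOsub hq)).ne')
  have hx0O : (x0, (0 : ℝ)) ∈ O := by
    refine ⟨⟨hx0, ?_⟩, ?_⟩
    · show 0 < G x0 - c ^ 2 * (0 : ℝ) ^ 2
      have := hG0 x0 hx0
      simpa using this
    · show 0 < f2 (x0, 0)
      have h1 := hG0 x0 hx0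
      have h2 : f2 (x0, 0) = G x0 * (E x0 * G x0 - (deriv G x0 ^ 2 / (4 * (c ^ 2 + m ^ 2))
        + ((c ^ 2 + m ^ 2) / m ^ 2) * (F x0 - c * deriv G x0 / (2 * (c ^ 2 + m ^ 2))) ^ 2)) := by
        simp only [hf2]
        ring
      rw [h2]
      exact mul_pos h1 hpos
  obtain ⟨δ, hδ, z, hzs, hz⟩ := exists_smooth_ode W O hOopen hW x0 hx0O
  have hIsub : Ioo (x0 - δ) (x0 + δ) ⊆ Ioo a b := fun x hx => hOsub (hz x hx).1
  -- the radius
  have hgr : ContDiffOn ℝ ∞ (fun x : ℝ => ((x, z x) : ℝ × ℝ)) (Ioo (x0 - δ) (x0 + δ)) :=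
    contDiffOn_id.prodMk hzs
  have hS : ContDiffOn ℝ ∞ (fun x => f1 (x, z x) / (c ^ 2 + m ^ 2)) (Ioo (x0 - δ) (x0 + δ)) :=
    (sf1.comp hgr (fun x hx => hOsub (hz x hx).1)).div_const _
  have hSpos : ∀ x ∈ Ioo (x0 - δ) (x0 + δ), 0 < f1 (x, z x) / (c ^ 2 + m ^ 2) := fun x hx =>
    div_pos (hz x hx).1.1.2 hk
  have hr : ContDiffOn ℝ ∞ (fun x => Real.sqrt (f1 (x, z x) / (c ^ 2 + m ^ 2)))
      (Ioo (x0 - δ) (x0 + δ)) := hS.sqrt (fun x hx => (hSpos x hx).ne')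
  set r : ℝ → ℝ := fun x => Real.sqrt (f1 (x, z x) / (c ^ 2 + m ^ 2)) with hrdef
  have hr' := (contDiffOn_infty_iff_deriv_of_isOpen isOpen_Ioo).1 hr
  have hz' := (contDiffOn_infty_iff_deriv_of_isOpen isOpen_Ioo).1 hzs
  have hrpos : ∀ x ∈ Ioo (x0 - δ) (x0 + δ), 0 < r x := fun x hx => Real.sqrt_pos.2 (hSpos x hx)
  have hrsq : ∀ x ∈ Ioo (x0 - δ) (x0 + δ), (c ^ 2 + m ^ 2) * r x ^ 2 + c ^ 2 * z x ^ 2 = G x := by
    intro x hx
    have h1 : r x ^ 2 = f1 (x, z x) / (c ^ 2 + m ^ 2) := Real.sq_sqrt (hSpos x hx).le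
    rw [h1, mul_div_cancel₀ _ hk.ne']
    simp only [hf1]
    ring
  have dr : ∀ x ∈ Ioo (x0 - δ) (x0 + δ), HasDerivAt r (deriv r x) x := fun x hx =>
    ((hr.differentiableOn (by simp)).differentiableAt (isOpen_Ioo.mem_nhds hx)).hasDerivAt
  have dz : ∀ x ∈ Ioo (x0 - δ) (x0 + δ), HasDerivAt z (deriv z x) x := fun x hx =>
    ((hzs.differentiableOn (by simp)).differentiableAt (isOpen_Ioo.mem_nhds hx)).hasDerivAt
  have dzW : ∀ x ∈ Ioo (x0 - δ) (x0 + δ), deriv z x = W (x, z x) := fun x hx => (hz x hx).2.deriv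
  have dG : ∀ x ∈ Ioo (x0 - δ) (x0 + δ), HasDerivAt G (deriv G x) x := fun x hx =>
    ((hG.differentiableOn (by simp)).differentiableAt
      (isOpen_Ioo.mem_nhds (hIsub hx))).hasDerivAt
  -- differentiate the relation for the radius
  have hrr1 : ∀ x ∈ Ioo (x0 - δ) (x0 + δ), r x * deriv r x
      = (deriv G x - 2 * c ^ 2 * z x * deriv z x) / (2 * (c ^ 2 + m ^ 2)) := by
    intro x hx
    have h1 : HasDerivAt (fun x => (c ^ 2 + m ^ 2) * r x ^ 2 + c ^ 2 * z x ^ 2)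
        ((c ^ 2 + m ^ 2) * (2 * r x * deriv r x) + c ^ 2 * (2 * z x * deriv z x)) x := by
      have h2 := (((dr x hx).pow 2).const_mul (c ^ 2 + m ^ 2)).add
        (((dz x hx).pow 2).const_mul (c ^ 2))
      refine h2.congr_deriv ?_
      push_cast
      ring
    have h3 : HasDerivAt G
        ((c ^ 2 + m ^ 2) * (2 * r x * deriv r x) + c ^ 2 * (2 * z x * deriv z x)) x := by
      refine h1.congr_of_eventuallyEq ?_
      filter_upwards [isOpen_Ioo.mem_nhds hx] with y hy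
      exact (hrsq y hy).symm
    have h4 := h3.unique (dG x hx)
    rw [eq_div_iff (by positivity)]
    linarith
  -- the angle
  have hth1 : ContDiffOn ℝ ∞ (fun x => (F x - c * (r x * deriv r x + z x * deriv z x))
      / (m * r x ^ 2)) (Ioo (x0 - δ) (x0 + δ)) := by
    refine ((hF.mono hIsub).sub (contDiffOn_const.mul ((hr.mul hr'.2).add (hzs.mul hz'.2)))).div
      (contDiffOn_const.mul (hr.pow 2)) (fun x hx => ?_)
    have := hrpos x hx
    positivity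
  obtain ⟨th, hths, hth⟩ := exists_primitive _ hth1
  refine ⟨x0 - δ, x0 + δ, ⟨by linarith, by linarith⟩, hIsub, m, r, th, z, deriv r,
    (fun x => (F x - c * (r x * deriv r x + z x * deriv z x)) / (m * r x ^ 2)), deriv z,
    hr, hths, hzs, fun x hx => ⟨dr x hx, hth x hx, dz x hx, hrsq x hx, ?_, ?_⟩⟩
  · have h1 := hrpos x hx
    show c * (r x * deriv r x + z x * deriv z x)
      + m * r x ^ 2 * ((F x - c * (r x * deriv r x + z x * deriv z x)) / (m * r x ^ 2)) = F x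
    rw [mul_div_cancel₀ _ (by positivity)]
    ring
  · have h1 := hrpos x hx
    have hGx := hG0 x (hIsub hx)
    have hf2x : 0 ≤ f2 (x, z x) := le_of_lt (hz x hx).1.2
    have hw : (G x * deriv z x - c * z x * F x) ^ 2 = f2 (x, z x) := by
      rw [dzW x hx]
      have h2 : G x * W (x, z x) - c * z x * F x = Real.sqrt (f2 (x, z x)) := by
        simp only [hWdef]
        field_simp
        ring
      rw [h2, Real.sq_sqrt hf2x]
    have halg := profile_algebra c m (E x) (F x) (G x) (deriv G x) (z x) (deriv z x) (r x ^ 2)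
      hm.ne' hGx.ne' hk.ne' (by linarith [hrsq x hx]) hw
    rw [← hrr1 x hx] at halg
    show deriv r x ^ 2 + r x ^ 2 * ((F x - c * (r x * deriv r x + z x * deriv z x))
      / (m * r x ^ 2)) ^ 2 + deriv z x ^ 2 = E x
    have h3 : r x ^ 2 * (deriv r x ^ 2 + r x ^ 2 * ((F x - c * (r x * deriv r x + z x * deriv z x))
      / (m * r x ^ 2)) ^ 2 + deriv z x ^ 2) = (r x * deriv r x) ^ 2
      + ((F x - c * (r x * deriv r x + z x * deriv z x)) / m) ^ 2 + r x ^ 2 * deriv z x ^ 2 := by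
      field_simp
    have h4 : r x ^ 2 ≠ 0 := by positivity
    apply mul_left_cancel₀ h4
    rw [h3, halg]
    ring

end Vale.Agent.P229
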