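import Vale.Agent.P229.Strip

/-! # P229: metrics invariant in the `y` direction are locally realizable -/

namespace Vale.Agent.P229

open Set

theorem loc_const {Ω : Set (ℝ × ℝ)} (hΩ : IsOpen Ω) {g : ℝ × ℝ → ℝ}
    (hg : ContDiffOn ℝ (⊤ : ℕ∞) g Ω) (hy : ∀ p ∈ Ω, fderiv ℝ g p (0, 1) = 0)
    {x y0 ρ : ℝ} (hsub : ∀ y ∈ Metric.ball y0 ρ, (x, y) ∈ Ω) (hρ : 0 < ρ) {y : ℝ}
    (hyb : y ∈ Metric.ball y0 ρ) : g (x, y) = g (x, y0) := by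
  have hd : ∀ t ∈ Metric.ball y0 ρ, HasDerivAt (fun t => g (x, t)) 0 t := by
    intro t ht
    have h1 : HasDerivAt (fun s : ℝ => (x, s)) ((0 : ℝ), (1 : ℝ)) t :=
      (hasDerivAt_const t x).prodMk (hasDerivAt_id t)
    have h2 : DifferentiableAt ℝ g (x, t) :=
      (hg.differentiableOn (by simp)).differentiableAt (hΩ.mem_nhds (hsub t ht))
    have h3 := HasFDerivAt.comp_hasDerivAt (f := fun s : ℝ => (x, s)) t h2.hasFDerivAt h1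
    rw [hy (x, t) (hsub t ht)] at h3
    exact h3
  exact Metric.isOpen_ball.is_const_of_deriv_eq_zero
    (convex_ball y0 ρ).isPreconnected
    (fun t ht => (hd t ht).differentiableAt.differentiableWithinAt)
    (fun t ht => (hd t ht).deriv) hyb (Metric.mem_ball_self hρ)

theorem loc_main {Ω : Set (ℝ × ℝ)} (hΩ : IsOpen Ω) {g₁₁ g₁₂ g₂₂ : ℝ × ℝ → ℝ}
    (h11 : ContDiffOn ℝ (⊤ : ℕ∞) g₁₁ Ω) (h12 : ContDiffOn ℝ (⊤ : ℕ∞) g₁₂ Ω)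
    (h22 : ContDiffOn ℝ (⊤ : ℕ∞) g₂₂ Ω)
    (hpos : ∀ p ∈ Ω, 0 < g₁₁ p ∧ 0 < g₁₁ p * g₂₂ p - g₁₂ p ^ 2)
    (hinv : ∀ p ∈ Ω, fderiv ℝ g₁₁ p (0, 1) = 0 ∧ fderiv ℝ g₁₂ p (0, 1) = 0 ∧
      fderiv ℝ g₂₂ p (0, 1) = 0) {p : ℝ × ℝ} (hp : p ∈ Ω) :
    ∃ U : Set (ℝ × ℝ), IsOpen U ∧ p ∈ U ∧ U ⊆ Ω ∧
      ∃ Φ : ℝ × ℝ → EuclideanSpace ℝ (Fin 3), IsSmoothIsometricImmersion g₁₁ g₁₂ g₂₂ U Φ := by
  obtain ⟨ρ, hρ, hball⟩ := Metric.isOpen_iff.1 hΩ p hp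
  have hbox : ∀ x ∈ Metric.ball p.1 ρ, ∀ y ∈ Metric.ball p.2 ρ, (x, y) ∈ Ω := by
    intro x hx y hy
    apply hball
    rw [Metric.mem_ball, Prod.dist_eq]
    exact max_lt hx hy
  have hy0 : p.2 ∈ Metric.ball p.2 ρ := Metric.mem_ball_self hρ
  have hm : MapsTo (fun x : ℝ => (x, p.2)) (Metric.ball p.1 ρ) Ω := fun x hx => hbox x hx _ hy0
  have hc : ContDiffOn ℝ (⊤ : ℕ∞) (fun x : ℝ => (x, p.2)) (Metric.ball p.1 ρ) :=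
    contDiffOn_id.prodMk contDiffOn_const
  have hab : Icc (p.1 - ρ / 2) (p.1 + ρ / 2) ⊆ Metric.ball p.1 ρ := by
    intro x hx
    rw [Real.ball_eq_Ioo]
    exact ⟨by linarith [hx.1], by linarith [hx.2]⟩
  obtain ⟨Φ, hΦ, hmet⟩ := strip (a := p.1 - ρ / 2) (b := p.1 + ρ / 2)
    (I := Metric.ball p.1 ρ) Metric.isOpen_ball hab
    (E := fun x => g₁₁ (x, p.2)) (F := fun x => g₁₂ (x, p.2)) (G := fun x => g₂₂ (x, p.2))
    (h11.comp hc hm) (h12.comp hc hm) (h22.comp hc hm)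
    (fun x hx => by
      have h := hpos _ (hbox x hx _ hy0)
      have h1 := h.1
      have h2 := h.2
      by_contra hcon
      push Not at hcon
      nlinarith [sq_nonneg (g₁₂ (x, p.2)), mul_nonneg h1.le (neg_nonneg.2 hcon)])
    (fun x hx => (hpos _ (hbox x hx _ hy0)).2)
  refine ⟨Ioo (p.1 - ρ / 2) (p.1 + ρ / 2) ×ˢ Metric.ball p.2 ρ,
    isOpen_Ioo.prod Metric.isOpen_ball, ⟨⟨by linarith, by linarith⟩, hy0⟩, ?_, Φ, ?_, ?_⟩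
  · intro q hq
    exact hbox q.1 (hab (Ioo_subset_Icc_self hq.1)) q.2 hq.2
  · exact hΦ.mono fun q hq => ⟨hq.1, mem_univ _⟩
  · intro q hq
    have hx : q.1 ∈ Metric.ball p.1 ρ := hab (Ioo_subset_Icc_self hq.1)
    obtain ⟨e1, e2, e3⟩ := hmet q ⟨hq.1, mem_univ _⟩
    have c1 := loc_const hΩ h11 (fun p hp => (hinv p hp).1) (hbox q.1 hx) hρ hq.2
    have c2 := loc_const hΩ h12 (fun p hp => (hinv p hp).2.1) (hbox q.1 hx) hρ hq.2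
    have c3 := loc_const hΩ h22 (fun p hp => (hinv p hp).2.2) (hbox q.1 hx) hρ hq.2
    exact ⟨e1.trans c1.symm, e2.trans c2.symm, e3.trans c3.symm⟩

end Vale.Agent.P229
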