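import Vale.Agent.P229.Core

open scoped ContDiff
open Set

namespace Vale.Agent.P229

/-- the helical rotation surface with profile `(R, h, z)` and scale `l` -/
noncomputable def surf (l : ℝ) (R h z : ℝ → ℝ) (q : ℝ × ℝ) : EuclideanSpace ℝ (Fin 3) :=
  !₂[l * R q.1 * Real.cos ((q.2 + h q.1) / l), l * R q.1 * Real.sin ((q.2 + h q.1) / l), z q.1]

lemma surf_contDiffOn {a b : ℝ} (l : ℝ) (R h z : ℝ → ℝ) (hR : ContDiffOn ℝ ∞ R (Ioo a b))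
    (hh : ContDiffOn ℝ ∞ h (Ioo a b)) (hz : ContDiffOn ℝ ∞ z (Ioo a b)) :
    ContDiffOn ℝ ∞ (surf l R h z) (Prod.fst ⁻¹' Ioo a b) := by
  have h1 : ContDiffOn ℝ ∞ (fun q : ℝ × ℝ => R q.1) (Prod.fst ⁻¹' Ioo a b) :=
    hR.comp contDiffOn_fst (fun q hq => hq)
  have h2 : ContDiffOn ℝ ∞ (fun q : ℝ × ℝ => h q.1) (Prod.fst ⁻¹' Ioo a b) :=
    hh.comp contDiffOn_fst (fun q hq => hq)
  have h3 : ContDiffOn ℝ ∞ (fun q : ℝ × ℝ => z q.1) (Prod.fst ⁻¹' Ioo a b) :=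
    hz.comp contDiffOn_fst (fun q hq => hq)
  have h4 : ContDiffOn ℝ ∞ (fun q : ℝ × ℝ => (q.2 + h q.1) / l) (Prod.fst ⁻¹' Ioo a b) :=
    (contDiffOn_snd.add h2).div_const l
  rw [contDiffOn_euclidean]
  intro i
  fin_cases i
  · exact (contDiffOn_const.mul h1).mul h4.cos
  · exact (contDiffOn_const.mul h1).mul h4.sin
  · exact h3

lemma fderiv_apply_coord {F : ℝ × ℝ → EuclideanSpace ℝ (Fin 3)} {q : ℝ × ℝ}
    (hF : DifferentiableAt ℝ F q) (i : Fin 3) {L : ℝ × ℝ →L[ℝ] ℝ}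
    (hL : HasFDerivAt (fun q => F q i) L q) (v : ℝ × ℝ) : (fderiv ℝ F q v) i = L v := by
  have h1 : HasFDerivAt (fun q => F q i)
      ((EuclideanSpace.proj i : EuclideanSpace ℝ (Fin 3) →L[ℝ] ℝ).comp (fderiv ℝ F q)) q :=
    (EuclideanSpace.proj i : EuclideanSpace ℝ (Fin 3) →L[ℝ] ℝ).hasFDerivAt.comp q hF.hasFDerivAt
  have h2 := h1.unique hL
  rw [← h2]
  rfl

lemma surf_metric {a b : ℝ} (l : ℝ) (hl : 0 < l) (R h z R1 h1 z1 : ℝ → ℝ) (E F G : ℝ → ℝ)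
    (hR : ContDiffOn ℝ ∞ R (Ioo a b))
    (hh : ContDiffOn ℝ ∞ h (Ioo a b)) (hz : ContDiffOn ℝ ∞ z (Ioo a b))
    (q : ℝ × ℝ) (hq : q.1 ∈ Ioo a b)
    (hR1 : HasDerivAt R (R1 q.1) q.1) (hh1 : HasDerivAt h (h1 q.1) q.1)
    (hz1 : HasDerivAt z (z1 q.1) q.1)
    (e1 : R q.1 ^ 2 = G q.1) (e2 : R q.1 ^ 2 * h1 q.1 = F q.1)
    (e3 : l ^ 2 * R1 q.1 ^ 2 + R q.1 ^ 2 * h1 q.1 ^ 2 + z1 q.1 ^ 2 = E q.1) :
    inner ℝ (fderiv ℝ (surf l R h z) q (1, 0)) (fderiv ℝ (surf l R h z) q (1, 0)) = E q.1 ∧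
    inner ℝ (fderiv ℝ (surf l R h z) q (1, 0)) (fderiv ℝ (surf l R h z) q (0, 1)) = F q.1 ∧
    inner ℝ (fderiv ℝ (surf l R h z) q (0, 1)) (fderiv ℝ (surf l R h z) q (0, 1)) = G q.1 := by
  have hopen : IsOpen (Prod.fst ⁻¹' Ioo a b : Set (ℝ × ℝ)) := isOpen_Ioo.preimage continuous_fst
  have hdiff : DifferentiableAt ℝ (surf l R h z) q :=
    ((surf_contDiffOn l R h z hR hh hz).differentiableOn (by simp)).differentiableAt
      (hopen.mem_nhds hq)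
  have hfst : HasFDerivAt (fun q : ℝ × ℝ => q.1) (ContinuousLinearMap.fst ℝ ℝ ℝ) q :=
    hasFDerivAt_fst
  have hsnd : HasFDerivAt (fun q : ℝ × ℝ => q.2) (ContinuousLinearMap.snd ℝ ℝ ℝ) q :=
    hasFDerivAt_snd
  have dR : HasFDerivAt (fun q : ℝ × ℝ => R q.1) (R1 q.1 • ContinuousLinearMap.fst ℝ ℝ ℝ) q :=
    hR1.comp_hasFDerivAt q hfst
  have dh : HasFDerivAt (fun q : ℝ × ℝ => h q.1) (h1 q.1 • ContinuousLinearMap.fst ℝ ℝ ℝ) q :=
    hh1.comp_hasFDerivAt q hfst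
  have dz : HasFDerivAt (fun q : ℝ × ℝ => z q.1) (z1 q.1 • ContinuousLinearMap.fst ℝ ℝ ℝ) q :=
    hz1.comp_hasFDerivAt q hfst
  have dang : HasFDerivAt (fun q : ℝ × ℝ => (q.2 + h q.1) * l⁻¹)
      (l⁻¹ • (ContinuousLinearMap.snd ℝ ℝ ℝ + h1 q.1 • ContinuousLinearMap.fst ℝ ℝ ℝ)) q :=
    (hsnd.add dh).mul_const l⁻¹
  have dcos := (dR.const_mul l).mul dang.cos
  have dsin := (dR.const_mul l).mul dang.sin
  have c0 : (fun q : ℝ × ℝ => surf l R h z q 0)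
      = fun q : ℝ × ℝ => l * R q.1 * Real.cos ((q.2 + h q.1) * l⁻¹) := by
    funext q; simp [surf, div_eq_mul_inv]
  have c1 : (fun q : ℝ × ℝ => surf l R h z q 1)
      = fun q : ℝ × ℝ => l * R q.1 * Real.sin ((q.2 + h q.1) * l⁻¹) := by
    funext q; simp [surf, div_eq_mul_inv]
  have c2 : (fun q : ℝ × ℝ => surf l R h z q 2) = fun q : ℝ × ℝ => z q.1 := by
    funext q; simp [surf]
  have dc0 := dcos.congr_of_eventuallyEq (f₁ := fun q : ℝ × ℝ => surf l R h z q 0)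
    (Filter.Eventually.of_forall (fun q => congrFun c0 q))
  have dc1 := dsin.congr_of_eventuallyEq (f₁ := fun q : ℝ × ℝ => surf l R h z q 1)
    (Filter.Eventually.of_forall (fun q => congrFun c1 q))
  have dc2 := dz.congr_of_eventuallyEq (f₁ := fun q : ℝ × ℝ => surf l R h z q 2)
    (Filter.Eventually.of_forall (fun q => congrFun c2 q))
  have k0 := fun v => fderiv_apply_coord hdiff 0 dc0 v
  have k1 := fun v => fderiv_apply_coord hdiff 1 dc1 v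
  have k2 := fun v => fderiv_apply_coord hdiff 2 dc2 v
  have hlne : l ≠ 0 := hl.ne'
  have hcs := Real.sin_sq_add_cos_sq ((q.2 + h q.1) * l⁻¹)
  set c := Real.cos ((q.2 + h q.1) * l⁻¹) with hc
  set s := Real.sin ((q.2 + h q.1) * l⁻¹) with hs
  have inn : ∀ v w : ℝ × ℝ, inner ℝ (fderiv ℝ (surf l R h z) q v) (fderiv ℝ (surf l R h z) q w)
      = (fderiv ℝ (surf l R h z) q v) 0 * (fderiv ℝ (surf l R h z) q w) 0
      + (fderiv ℝ (surf l R h z) q v) 1 * (fderiv ℝ (surf l R h z) q w) 1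
      + (fderiv ℝ (surf l R h z) q v) 2 * (fderiv ℝ (surf l R h z) q w) 2 := by
    intro v w
    rw [PiLp.inner_apply, Fin.sum_univ_three]
    simp only [RCLike.inner_apply, conj_trivial]
    ring
  refine ⟨?_, ?_, ?_⟩
  · rw [inn, k0, k1, k2]
    simp [← hc, ← hs]
    rw [← e3]
    field_simp
    linear_combination (l ^ 2 * R1 q.1 ^ 2 + R q.1 ^ 2 * h1 q.1 ^ 2) * hcs
  · rw [inn, k0, k1, k2, k0, k1, k2]
    simp [← hc, ← hs]
    rw [← e2]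
    field_simp
    linear_combination (R q.1 ^ 2 * h1 q.1) * hcs
  · rw [inn, k0, k1, k2]
    simp [← hc, ← hs]
    rw [← e1]
    field_simp
    linear_combination (R q.1 ^ 2) * hcs

end Vale.Agent.P229
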