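import Vale.Agent.P229.Map

open scoped ContDiff
open Set

namespace Vale.Agent.P229

lemma exists_smooth_ode (W : ℝ × ℝ → ℝ) (O : Set (ℝ × ℝ)) (hO : IsOpen O)
    (hW : ContDiffOn ℝ ∞ W O) (x0 : ℝ) (h0 : (x0, (0 : ℝ)) ∈ O) :
    ∃ δ > 0, ∃ z : ℝ → ℝ, ContDiffOn ℝ ∞ z (Ioo (x0 - δ) (x0 + δ)) ∧
      ∀ x ∈ Ioo (x0 - δ) (x0 + δ), (x, z x) ∈ O ∧ HasDerivAt z (W (x, z x)) x := by
  have hv : ContDiffAt ℝ 1 (fun q : ℝ × ℝ => ((1 : ℝ), W q)) (x0, 0) := by
    have h1 : ContDiffAt ℝ ∞ W (x0, 0) := hW.contDiffAt (hO.mem_nhds h0)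
    exact contDiffAt_const.prodMk (h1.of_le (by exact_mod_cast le_top))
  obtain ⟨α, hα0, ε, hε, hα⟩ :=
    hv.exists_forall_mem_closedBall_exists_eq_forall_mem_Ioo_hasDerivAt₀ x0
  have hx0 : x0 ∈ Ioo (x0 - ε) (x0 + ε) := ⟨by linarith, by linarith⟩
  have h1 : ∀ t ∈ Ioo (x0 - ε) (x0 + ε), (α t).1 = t := by
    intro t ht
    have hd : ∀ y ∈ Ioo (x0 - ε) (x0 + ε), HasDerivAt (fun y : ℝ => (α y).1 - y) 0 y := by
      intro y hy
      have h2 : HasDerivAt (fun y : ℝ => (α y).1) 1 y := (hα y hy).fst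
      have h3 := h2.sub (hasDerivAt_id y)
      rw [sub_self] at h3
      exact h3
    have h4 := (convex_Ioo (x0 - ε) (x0 + ε)).is_const_of_fderivWithin_eq_zero (𝕜 := ℝ)
      (f := fun y : ℝ => (α y).1 - y)
      (fun y hy => (hd y hy).differentiableAt.differentiableWithinAt)
      (fun y hy => by
        rw [fderivWithin_of_isOpen isOpen_Ioo hy, (hd y hy).hasFDerivAt.fderiv]
        ext
        simp) ht hx0
    simp only [hα0] at h4
    linarith
  have hcont : ContinuousAt α x0 := (hα x0 hx0).continuousAt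
  have hev : ∀ᶠ t in nhds x0, α t ∈ O ∧ t ∈ Ioo (x0 - ε) (x0 + ε) := by
    refine (hcont.eventually ?_).and (isOpen_Ioo.mem_nhds hx0)
    rw [hα0]
    exact hO.mem_nhds h0
  obtain ⟨δ, hδ, hball⟩ := Metric.eventually_nhds_iff_ball.1 hev
  rw [Real.ball_eq_Ioo] at hball
  have hz : ∀ x ∈ Ioo (x0 - δ) (x0 + δ), (x, (α x).2) ∈ O ∧
      HasDerivAt (fun x => (α x).2) (W (x, (α x).2)) x := by
    intro x hx
    have h5 : (x, (α x).2) = α x := Prod.ext (h1 x (hball x hx).2).symm rfl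
    rw [h5]
    exact ⟨(hball x hx).1, (hα x (hball x hx).2).snd⟩
  refine ⟨δ, hδ, fun x => (α x).2, ?_, hz⟩
  rw [contDiffOn_infty]
  intro n
  induction n with
  | zero =>
    exact contDiffOn_zero.2 (fun x hx => (hz x hx).2.continuousAt.continuousWithinAt)
  | succ n ih =>
    rw [Nat.cast_succ, contDiffOn_succ_iff_deriv_of_isOpen isOpen_Ioo]
    refine ⟨fun x hx => (hz x hx).2.differentiableAt.differentiableWithinAt,
      fun h => by simp at h, ?_⟩
    have h6 : ContDiffOn ℝ n (fun x => W (x, (α x).2)) (Ioo (x0 - δ) (x0 + δ)) :=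
      (hW.of_le (by exact_mod_cast le_top)).comp (contDiffOn_id.prodMk ih)
        (fun x hx => (hz x hx).1)
    exact h6.congr (fun x hx => (hz x hx).2.deriv)

end Vale.Agent.P229
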