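import Mathlib

/-! # P229: smooth primitives on open intervals -/

namespace Vale.Agent.P229

open Set MeasureTheory

/-- a smooth function on an open interval has a smooth primitive -/
theorem exists_prim {a b : ℝ} {w : ℝ → ℝ} (hw : ContDiffOn ℝ (⊤ : ℕ∞) w (Ioo a b)) :
    ∃ h : ℝ → ℝ, ContDiffOn ℝ (⊤ : ℕ∞) h (Ioo a b) ∧ ∀ x ∈ Ioo a b, HasDerivAt h (w x) x := by
  rcases (Ioo a b).eq_empty_or_nonempty with he | ⟨c, hc⟩
  · rw [he]
    exact ⟨0, contDiffOn_const, fun x hx => absurd hx (notMem_empty x)⟩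
  · have hcont : ContinuousOn w (Ioo a b) := hw.continuousOn
    have hd : ∀ x ∈ Ioo a b, HasDerivAt (fun u => ∫ t in c..u, w t) (w x) x := by
      intro x hx
      have hsub : uIcc c x ⊆ Ioo a b := (ordConnected_Ioo).uIcc_subset hc hx
      refine intervalIntegral.integral_hasDerivAt_right
        ((hcont.mono hsub).intervalIntegrable) ?_ ?_
      · exact hcont.stronglyMeasurableAtFilter isOpen_Ioo x hx
      · exact hcont.continuousAt (isOpen_Ioo.mem_nhds hx)
    refine ⟨fun u => ∫ t in c..u, w t, ?_, hd⟩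
    rw [contDiffOn_infty_iff_deriv_of_isOpen isOpen_Ioo]
    refine ⟨fun x hx => (hd x hx).differentiableAt.differentiableWithinAt, ?_⟩
    exact hw.congr fun x hx => (hd x hx).deriv

end Vale.Agent.P229
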