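import Vale.Agent.P229.Map

open scoped ContDiff
open Set

namespace Vale.Agent.P229

/-- the spiral surface with profile `(r, th, z)`, expansion rate `c` and angular speed `m` -/
noncomputable def spir (c m : ℝ) (r th z : ℝ → ℝ) (q : ℝ × ℝ) : EuclideanSpace ℝ (Fin 3) :=
  !₂[Real.exp (c * q.2) * (r q.1 * Real.cos (th q.1 + m * q.2)),
    Real.exp (c * q.2) * (r q.1 * Real.sin (th q.1 + m * q.2)),
    Real.exp (c * q.2) * z q.1]

lemma spir_contDiffOn {a b : ℝ} (c m : ℝ) (r th z : ℝ → ℝ) (hr : ContDiffOn ℝ ∞ r (Ioo a b))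
    (hth : ContDiffOn ℝ ∞ th (Ioo a b)) (hz : ContDiffOn ℝ ∞ z (Ioo a b)) :
    ContDiffOn ℝ ∞ (spir c m r th z) (Prod.fst ⁻¹' Ioo a b) := by
  have h1 : ContDiffOn ℝ ∞ (fun q : ℝ × ℝ => r q.1) (Prod.fst ⁻¹' Ioo a b) :=
    hr.comp contDiffOn_fst (fun q hq => hq)
  have h2 : ContDiffOn ℝ ∞ (fun q : ℝ × ℝ => th q.1) (Prod.fst ⁻¹' Ioo a b) :=
    hth.comp contDiffOn_fst (fun q hq => hq)
  have h3 : ContDiffOn ℝ ∞ (fun q : ℝ × ℝ => z q.1) (Prod.fst ⁻¹' Ioo a b) :=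
    hz.comp contDiffOn_fst (fun q hq => hq)
  have h4 : ContDiffOn ℝ ∞ (fun q : ℝ × ℝ => th q.1 + m * q.2) (Prod.fst ⁻¹' Ioo a b) :=
    h2.add (contDiffOn_const.mul contDiffOn_snd)
  have h5 : ContDiffOn ℝ ∞ (fun q : ℝ × ℝ => Real.exp (c * q.2)) (Prod.fst ⁻¹' Ioo a b) :=
    (contDiffOn_const.mul contDiffOn_snd).exp
  rw [contDiffOn_euclidean]
  intro i
  fin_cases i
  · exact h5.mul (h1.mul h4.cos)
  · exact h5.mul (h1.mul h4.sin)
  · exact h5.mul h3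

lemma spir_metric {a b : ℝ} (c m : ℝ) (r th z r1 th1 z1 : ℝ → ℝ) (E F G : ℝ → ℝ)
    (hr : ContDiffOn ℝ ∞ r (Ioo a b))
    (hth : ContDiffOn ℝ ∞ th (Ioo a b)) (hz : ContDiffOn ℝ ∞ z (Ioo a b))
    (q : ℝ × ℝ) (hq : q.1 ∈ Ioo a b)
    (hr1 : HasDerivAt r (r1 q.1) q.1) (hth1 : HasDerivAt th (th1 q.1) q.1)
    (hz1 : HasDerivAt z (z1 q.1) q.1)
    (e1 : (c ^ 2 + m ^ 2) * r q.1 ^ 2 + c ^ 2 * z q.1 ^ 2 = G q.1)
    (e2 : c * (r q.1 * r1 q.1 + z q.1 * z1 q.1) + m * r q.1 ^ 2 * th1 q.1 = F q.1)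
    (e3 : r1 q.1 ^ 2 + r q.1 ^ 2 * th1 q.1 ^ 2 + z1 q.1 ^ 2 = E q.1) :
    inner ℝ (fderiv ℝ (spir c m r th z) q (1, 0)) (fderiv ℝ (spir c m r th z) q (1, 0))
      = Real.exp (c * q.2) ^ 2 * E q.1 ∧
    inner ℝ (fderiv ℝ (spir c m r th z) q (1, 0)) (fderiv ℝ (spir c m r th z) q (0, 1))
      = Real.exp (c * q.2) ^ 2 * F q.1 ∧
    inner ℝ (fderiv ℝ (spir c m r th z) q (0, 1)) (fderiv ℝ (spir c m r th z) q (0, 1))
      = Real.exp (c * q.2) ^ 2 * G q.1 := by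
  have hopen : IsOpen (Prod.fst ⁻¹' Ioo a b : Set (ℝ × ℝ)) := isOpen_Ioo.preimage continuous_fst
  have hdiff : DifferentiableAt ℝ (spir c m r th z) q :=
    ((spir_contDiffOn c m r th z hr hth hz).differentiableOn (by simp)).differentiableAt
      (hopen.mem_nhds hq)
  have hfst : HasFDerivAt (fun q : ℝ × ℝ => q.1) (ContinuousLinearMap.fst ℝ ℝ ℝ) q :=
    hasFDerivAt_fst
  have hsnd : HasFDerivAt (fun q : ℝ × ℝ => q.2) (ContinuousLinearMap.snd ℝ ℝ ℝ) q :=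
    hasFDerivAt_snd
  have dr : HasFDerivAt (fun q : ℝ × ℝ => r q.1) (r1 q.1 • ContinuousLinearMap.fst ℝ ℝ ℝ) q :=
    hr1.comp_hasFDerivAt q hfst
  have dth : HasFDerivAt (fun q : ℝ × ℝ => th q.1) (th1 q.1 • ContinuousLinearMap.fst ℝ ℝ ℝ) q :=
    hth1.comp_hasFDerivAt q hfst
  have dz : HasFDerivAt (fun q : ℝ × ℝ => z q.1) (z1 q.1 • ContinuousLinearMap.fst ℝ ℝ ℝ) q :=
    hz1.comp_hasFDerivAt q hfst
  have dang : HasFDerivAt (fun q : ℝ × ℝ => th q.1 + m * q.2)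
      (th1 q.1 • ContinuousLinearMap.fst ℝ ℝ ℝ + m • ContinuousLinearMap.snd ℝ ℝ ℝ) q :=
    dth.add (hsnd.const_mul m)
  have dexp : HasFDerivAt (fun q : ℝ × ℝ => Real.exp (c * q.2))
      (Real.exp (c * q.2) • (c • ContinuousLinearMap.snd ℝ ℝ ℝ)) q :=
    (hsnd.const_mul c).exp
  have dcos := dexp.mul (dr.mul dang.cos)
  have dsin := dexp.mul (dr.mul dang.sin)
  have dzz := dexp.mul dz
  have c0 : (fun q : ℝ × ℝ => spir c m r th z q 0)
      = fun q : ℝ × ℝ => Real.exp (c * q.2) * (r q.1 * Real.cos (th q.1 + m * q.2)) := by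
    funext q; simp [spir]
  have c1 : (fun q : ℝ × ℝ => spir c m r th z q 1)
      = fun q : ℝ × ℝ => Real.exp (c * q.2) * (r q.1 * Real.sin (th q.1 + m * q.2)) := by
    funext q; simp [spir]
  have c2 : (fun q : ℝ × ℝ => spir c m r th z q 2)
      = fun q : ℝ × ℝ => Real.exp (c * q.2) * z q.1 := by
    funext q; simp [spir]
  have dc0 := dcos.congr_of_eventuallyEq (f₁ := fun q : ℝ × ℝ => spir c m r th z q 0)
    (Filter.Eventually.of_forall (fun q => congrFun c0 q))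
  have dc1 := dsin.congr_of_eventuallyEq (f₁ := fun q : ℝ × ℝ => spir c m r th z q 1)
    (Filter.Eventually.of_forall (fun q => congrFun c1 q))
  have dc2 := dzz.congr_of_eventuallyEq (f₁ := fun q : ℝ × ℝ => spir c m r th z q 2)
    (Filter.Eventually.of_forall (fun q => congrFun c2 q))
  have k0 := fun v => fderiv_apply_coord hdiff 0 dc0 v
  have k1 := fun v => fderiv_apply_coord hdiff 1 dc1 v
  have k2 := fun v => fderiv_apply_coord hdiff 2 dc2 v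
  have hcs := Real.sin_sq_add_cos_sq (th q.1 + m * q.2)
  have inn : ∀ v w : ℝ × ℝ, inner ℝ (fderiv ℝ (spir c m r th z) q v)
      (fderiv ℝ (spir c m r th z) q w)
      = (fderiv ℝ (spir c m r th z) q v) 0 * (fderiv ℝ (spir c m r th z) q w) 0
      + (fderiv ℝ (spir c m r th z) q v) 1 * (fderiv ℝ (spir c m r th z) q w) 1
      + (fderiv ℝ (spir c m r th z) q v) 2 * (fderiv ℝ (spir c m r th z) q w) 2 := by
    intro v w
    rw [PiLp.inner_apply, Fin.sum_univ_three]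
    simp only [RCLike.inner_apply, conj_trivial]
    ring
  refine ⟨?_, ?_, ?_⟩
  · rw [inn, k0, k1, k2]
    simp
    rw [← e3]
    linear_combination (Real.exp (c * q.2) ^ 2 * (r1 q.1 ^ 2 + r q.1 ^ 2 * th1 q.1 ^ 2)) * hcs
  · rw [inn, k0, k1, k2, k0, k1, k2]
    simp
    rw [← e2]
    linear_combination (Real.exp (c * q.2) ^ 2 * (c * r q.1 * r1 q.1 + m * r q.1 ^ 2 * th1 q.1)) * hcs
  · rw [inn, k0, k1, k2]
    simp
    rw [← e1]
    linear_combination (Real.exp (c * q.2) ^ 2 * (c ^ 2 + m ^ 2) * r q.1 ^ 2) * hcs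

end Vale.Agent.P229
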