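import Vale.Agent.P229.Prim

/-! # P229: metrics whose coefficients do not depend on `y`, strips -/

namespace Vale.Agent.P229

open Set

/-- `Φ` is a `C^∞` isometric immersion of the open set `U ⊆ ℝ²` with the metric
`g₁₁ dx² + 2 g₁₂ dx dy + g₂₂ dy²` into Euclidean `ℝ³`. -/
def IsSmoothIsometricImmersion (g₁₁ g₁₂ g₂₂ : ℝ × ℝ → ℝ) (U : Set (ℝ × ℝ))
    (Φ : ℝ × ℝ → EuclideanSpace ℝ (Fin 3)) : Prop :=
  ContDiffOn ℝ (⊤ : ℕ∞) Φ U ∧ ∀ p ∈ U,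
    inner ℝ (fderiv ℝ Φ p (1, 0)) (fderiv ℝ Φ p (1, 0)) = g₁₁ p ∧
    inner ℝ (fderiv ℝ Φ p (1, 0)) (fderiv ℝ Φ p (0, 1)) = g₁₂ p ∧
    inner ℝ (fderiv ℝ Φ p (0, 1)) (fderiv ℝ Φ p (0, 1)) = g₂₂ p

theorem strip_comp_x {Φ : ℝ × ℝ → EuclideanSpace ℝ (Fin 3)} {p : ℝ × ℝ}
    (hΦ : DifferentiableAt ℝ Φ p) (i : Fin 3) {d : ℝ}
    (hd : HasDerivAt (fun t => Φ (t, p.2) i) d p.1) : (fderiv ℝ Φ p (1, 0)) i = d := by
  have h1 : HasDerivAt (fun t : ℝ => (t, p.2)) ((1 : ℝ), (0 : ℝ)) p.1 :=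
    (hasDerivAt_id p.1).prodMk (hasDerivAt_const p.1 p.2)
  have h2 : HasDerivAt (fun t => Φ (t, p.2)) (fderiv ℝ Φ p (1, 0)) p.1 :=
    HasFDerivAt.comp_hasDerivAt (f := fun t : ℝ => (t, p.2)) p.1 hΦ.hasFDerivAt h1
  have h3 := (EuclideanSpace.proj (𝕜 := ℝ) i).hasFDerivAt.comp_hasDerivAt p.1 h2
  exact h3.unique hd

theorem strip_comp_y {Φ : ℝ × ℝ → EuclideanSpace ℝ (Fin 3)} {p : ℝ × ℝ}
    (hΦ : DifferentiableAt ℝ Φ p) (i : Fin 3) {d : ℝ}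
    (hd : HasDerivAt (fun t => Φ (p.1, t) i) d p.2) : (fderiv ℝ Φ p (0, 1)) i = d := by
  have h1 : HasDerivAt (fun t : ℝ => (p.1, t)) ((0 : ℝ), (1 : ℝ)) p.2 :=
    (hasDerivAt_const p.2 p.1).prodMk (hasDerivAt_id p.2)
  have h2 : HasDerivAt (fun t => Φ (p.1, t)) (fderiv ℝ Φ p (0, 1)) p.2 :=
    HasFDerivAt.comp_hasDerivAt (f := fun t : ℝ => (p.1, t)) p.2 hΦ.hasFDerivAt h1
  have h3 := (EuclideanSpace.proj (𝕜 := ℝ) i).hasFDerivAt.comp_hasDerivAt p.2 h2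
  exact h3.unique hd

/-- the parametrisation -/
noncomputable def param (e : ℝ) (r φ h : ℝ → ℝ) (p : ℝ × ℝ) : EuclideanSpace ℝ (Fin 3) :=
  !₂[e * r p.1 * Real.cos ((p.2 + φ p.1) / e), e * r p.1 * Real.sin ((p.2 + φ p.1) / e), h p.1]

theorem param_contDiffOn {a b e : ℝ} {r φ h : ℝ → ℝ} (hr : ContDiffOn ℝ (⊤ : ℕ∞) r (Ioo a b))
    (hφ : ContDiffOn ℝ (⊤ : ℕ∞) φ (Ioo a b)) (hh : ContDiffOn ℝ (⊤ : ℕ∞) h (Ioo a b)) :
    ContDiffOn ℝ (⊤ : ℕ∞) (param e r φ h) (Ioo a b ×ˢ univ) := by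
  have hfst : ContDiffOn ℝ (⊤ : ℕ∞) (fun p : ℝ × ℝ => p.1) (Ioo a b ×ˢ univ) := contDiffOn_fst
  have hsnd : ContDiffOn ℝ (⊤ : ℕ∞) (fun p : ℝ × ℝ => p.2) (Ioo a b ×ˢ univ) := contDiffOn_snd
  have hm : MapsTo (fun p : ℝ × ℝ => p.1) (Ioo a b ×ˢ univ) (Ioo a b) := fun p hp => hp.1
  have hr' := hr.comp hfst hm
  have hφ' := hφ.comp hfst hm
  have hh' := hh.comp hfst hm
  have hθ : ContDiffOn ℝ (⊤ : ℕ∞) (fun p : ℝ × ℝ => (p.2 + φ p.1) / e) (Ioo a b ×ˢ univ) :=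
    (hsnd.add hφ').div_const e
  rw [contDiffOn_euclidean]
  intro i
  fin_cases i
  · exact (contDiffOn_const.mul hr').mul (Real.contDiff_cos.comp_contDiffOn hθ)
  · exact (contDiffOn_const.mul hr').mul (Real.contDiff_sin.comp_contDiffOn hθ)
  · exact hh'

theorem param_metric {e : ℝ} (he : e ≠ 0) {r φ h : ℝ → ℝ} {p : ℝ × ℝ} {r' φ' h' : ℝ}
    (hd : DifferentiableAt ℝ (param e r φ h) p)
    (hr : HasDerivAt r r' p.1) (hφ : HasDerivAt φ φ' p.1) (hh : HasDerivAt h h' p.1) :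
    inner ℝ (fderiv ℝ (param e r φ h) p (1, 0)) (fderiv ℝ (param e r φ h) p (1, 0))
        = e ^ 2 * r' ^ 2 + r p.1 ^ 2 * φ' ^ 2 + h' ^ 2 ∧
    inner ℝ (fderiv ℝ (param e r φ h) p (1, 0)) (fderiv ℝ (param e r φ h) p (0, 1))
        = r p.1 ^ 2 * φ' ∧
    inner ℝ (fderiv ℝ (param e r φ h) p (0, 1)) (fderiv ℝ (param e r φ h) p (0, 1))
        = r p.1 ^ 2 := by
  set θ := (p.2 + φ p.1) / e with hθ
  have hθx : HasDerivAt (fun t => (p.2 + φ t) / e) (φ' / e) p.1 :=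
    (hφ.const_add p.2).div_const e
  have hθy : HasDerivAt (fun t => (t + φ p.1) / e) (1 / e) p.2 :=
    ((hasDerivAt_id p.2).add_const (φ p.1)).div_const e
  have x0 : (fderiv ℝ (param e r φ h) p (1, 0)) 0
      = e * r' * Real.cos θ - r p.1 * φ' * Real.sin θ := by
    apply strip_comp_x hd 0
    have h1 := (hr.const_mul e).mul hθx.cos
    have h2 : e * r' * Real.cos ((p.2 + φ p.1) / e) + e * r p.1 * (-Real.sin ((p.2 + φ p.1) / e) * (φ' / e))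
        = e * r' * Real.cos θ - r p.1 * φ' * Real.sin θ := by
      rw [← hθ]; field_simp; ring
    rw [h2] at h1
    exact h1
  have x1 : (fderiv ℝ (param e r φ h) p (1, 0)) 1
      = e * r' * Real.sin θ + r p.1 * φ' * Real.cos θ := by
    apply strip_comp_x hd 1
    have h1 := (hr.const_mul e).mul hθx.sin
    have h2 : e * r' * Real.sin ((p.2 + φ p.1) / e) + e * r p.1 * (Real.cos ((p.2 + φ p.1) / e) * (φ' / e))
        = e * r' * Real.sin θ + r p.1 * φ' * Real.cos θ := by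
      rw [← hθ]; field_simp
    rw [h2] at h1
    exact h1
  have x2 : (fderiv ℝ (param e r φ h) p (1, 0)) 2 = h' := by
    apply strip_comp_x hd 2
    exact hh
  have y0 : (fderiv ℝ (param e r φ h) p (0, 1)) 0 = - (r p.1 * Real.sin θ) := by
    apply strip_comp_y hd 0
    have h1 := hθy.cos.const_mul (e * r p.1)
    have h2 : e * r p.1 * (-Real.sin ((p.2 + φ p.1) / e) * (1 / e)) = - (r p.1 * Real.sin θ) := by
      rw [← hθ]; field_simp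
    rw [h2] at h1
    exact h1
  have y1 : (fderiv ℝ (param e r φ h) p (0, 1)) 1 = r p.1 * Real.cos θ := by
    apply strip_comp_y hd 1
    have h1 := hθy.sin.const_mul (e * r p.1)
    have h2 : e * r p.1 * (Real.cos ((p.2 + φ p.1) / e) * (1 / e)) = r p.1 * Real.cos θ := by
      rw [← hθ]; field_simp
    rw [h2] at h1
    exact h1
  have y2 : (fderiv ℝ (param e r φ h) p (0, 1)) 2 = 0 := by
    apply strip_comp_y hd 2
    exact hasDerivAt_const p.2 (h p.1)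
  have hsc := Real.sin_sq_add_cos_sq θ
  simp only [PiLp.inner_apply, Fin.sum_univ_three, RCLike.inner_apply, conj_trivial, x0, x1, x2,
    y0, y1, y2]
  refine ⟨?_, ?_, ?_⟩
  · linear_combination (e ^ 2 * r' ^ 2 + r p.1 ^ 2 * φ' ^ 2) * hsc
  · linear_combination (r p.1 ^ 2 * φ') * hsc
  · linear_combination (r p.1 ^ 2) * hsc

/-- strips: metrics with coefficients depending on `x` only -/
theorem strip {a b : ℝ} {I : Set ℝ} (hI : IsOpen I) (hab : Icc a b ⊆ I) {E F G : ℝ → ℝ}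
    (hE : ContDiffOn ℝ (⊤ : ℕ∞) E I) (hF : ContDiffOn ℝ (⊤ : ℕ∞) F I)
    (hG : ContDiffOn ℝ (⊤ : ℕ∞) G I)
    (hG0 : ∀ x ∈ I, 0 < G x) (hD0 : ∀ x ∈ I, 0 < E x * G x - F x ^ 2) :
    ∃ Φ : ℝ × ℝ → EuclideanSpace ℝ (Fin 3),
      IsSmoothIsometricImmersion (fun p => E p.1) (fun p => F p.1) (fun p => G p.1)
        (Ioo a b ×ˢ univ) Φ := by
  have hr : ContDiffOn ℝ (⊤ : ℕ∞) (fun x => √(G x)) I := hG.sqrt fun x hx => (hG0 x hx).ne'
  have hr2 : ContDiffOn ℝ (⊤ : ℕ∞) (deriv fun x => √(G x)) I :=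
    ((contDiffOn_infty_iff_deriv_of_isOpen hI).1 hr).2
  have hrd : ∀ x ∈ I, HasDerivAt (fun x => √(G x)) (deriv (fun x => √(G x)) x) x := fun x hx =>
    ((hr.differentiableOn (by simp)).differentiableAt (hI.mem_nhds hx)).hasDerivAt
  set r : ℝ → ℝ := fun x => √(G x) with hrdef
  have hD : ContDiffOn ℝ (⊤ : ℕ∞) (fun x => E x - F x ^ 2 / G x) I :=
    hE.sub ((hF.pow 2).div hG fun x hx => (hG0 x hx).ne')
  have hDpos : ∀ x ∈ I, 0 < E x - F x ^ 2 / G x := fun x hx => by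
    have h1 := hG0 x hx
    have h2 := hD0 x hx
    rw [sub_pos, div_lt_iff₀ h1]
    linarith
  have hq : ContinuousOn (fun x => (E x - F x ^ 2 / G x) / (1 + deriv r x ^ 2)) (Icc a b) :=
    ((hD.continuousOn).div (continuousOn_const.add (hr2.continuousOn.pow 2))
      fun x _ => (by positivity : (1 + deriv r x ^ 2 : ℝ) ≠ 0)).mono hab
  obtain ⟨m, hm0, hm⟩ := isCompact_Icc.exists_forall_le' hq
    (a := 0) fun x hx => div_pos (hDpos x (hab hx)) (by positivity)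
  have hm' : ∀ x ∈ Icc a b, 0 < (E x - F x ^ 2 / G x) - m * deriv r x ^ 2 := fun x hx => by
    have h1 := hm x hx
    rw [le_div_iff₀ (by positivity)] at h1
    nlinarith
  have hsub : Ioo a b ⊆ I := Ioo_subset_Icc_self.trans hab
  have hw : ContDiffOn ℝ (⊤ : ℕ∞)
      (fun x => √((E x - F x ^ 2 / G x) - m * deriv r x ^ 2)) (Ioo a b) := by
    refine ContDiffOn.sqrt ?_ fun x hx => (hm' x (Ioo_subset_Icc_self hx)).ne'
    exact (hD.mono hsub).sub (contDiffOn_const.mul ((hr2.mono hsub).pow 2))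
  have hv : ContDiffOn ℝ (⊤ : ℕ∞) (fun x => F x / G x) (Ioo a b) :=
    (hF.mono hsub).div (hG.mono hsub) fun x hx => (hG0 x (hsub hx)).ne'
  obtain ⟨h, hh, hhd⟩ := exists_prim hw
  obtain ⟨φ, hφ, hφd⟩ := exists_prim hv
  have he : √m ≠ 0 := (Real.sqrt_pos.2 hm0).ne'
  refine ⟨param (√m) r φ h, param_contDiffOn (hr.mono hsub) hφ hh, ?_⟩
  intro p hp
  have hp1 : p.1 ∈ Ioo a b := hp.1
  have hopen : IsOpen (Ioo a b ×ˢ (univ : Set ℝ)) := isOpen_Ioo.prod isOpen_univ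
  have hdiff : DifferentiableAt ℝ (param (√m) r φ h) p :=
    ((param_contDiffOn (e := √m) (hr.mono hsub) hφ hh).differentiableOn (by simp)).differentiableAt
      (hopen.mem_nhds hp)
  obtain ⟨e1, e2, e3⟩ := param_metric he hdiff (hrd p.1 (hsub hp1)) (hφd p.1 hp1) (hhd p.1 hp1)
  have hG1 := hG0 p.1 (hsub hp1)
  have hrr : r p.1 ^ 2 = G p.1 := Real.sq_sqrt hG1.le
  have hmm : √m ^ 2 = m := Real.sq_sqrt hm0.le
  have hww := Real.sq_sqrt (hm' p.1 (Ioo_subset_Icc_self hp1)).le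
  rw [e1, e2, e3, hrr, hmm, hww]
  refine ⟨?_, ?_, rfl⟩
  · show m * deriv r p.1 ^ 2 + G p.1 * (F p.1 / G p.1) ^ 2
      + (E p.1 - F p.1 ^ 2 / G p.1 - m * deriv r p.1 ^ 2) = E p.1
    field_simp
    ring
  · show G p.1 * (F p.1 / G p.1) = F p.1
    field_simp

end Vale.Agent.P229
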